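import Vale.Agent.P057.Defs

/-! # P057, module ASYM (helper20): asymptotics -/

set_option autoImplicit false

namespace Vale.Agent.P057

open Filter

namespace AsymX

/-- the inequality in logarithmic form; `s = √(log N)`, `r = √(2c)`, `c = log (9/5)`. -/
theorem ineq {c r ε ε1 δ η s D : ℝ} (hr : 0 < r) (hc : c = r ^ 2 / 2) (hε : 0 < ε)
    (hε1 : ε1 = ε * r / 8) (hδ : δ = ε * r / 8) (hs : 0 < s)
    (hD1 : 1 ≤ D) (hDl : 2 / r * s ≤ D) (hDu : D ≤ 2 / r * s + 1) (hlog : Real.log D ≤ δ * D)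
    (hK : 3 * Real.log 2 + c + ε1 + δ - Real.log η ≤ ε / 2 * s) :
    Real.log 2 + D * (c + ε1) + Real.log D - Real.log η + 2 / D * (Real.log 2 + s ^ 2) ≤
      (2 * r + ε) * s := by
  have hl2 : 0 < Real.log 2 := Real.log_pos (by norm_num)
  have hc0 : 0 < c := by rw [hc]; positivity
  have hD0 : 0 < D := by linarith
  have h1 : D * c ≤ r * s + c := by
    have : (2 / r * s + 1) * c = r * s + c := by rw [hc]; field_simp
    rw [← this]
    exact mul_le_mul_of_nonneg_right hDu hc0.le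
  have h2 : 2 / D * s ^ 2 ≤ r * s := by
    rw [div_mul_eq_mul_div, div_le_iff₀ hD0]
    have : r * s * (2 / r * s) = 2 * s ^ 2 := by field_simp
    rw [← this]
    exact mul_le_mul_of_nonneg_left hDl (by positivity)
  have h3 : 2 / D * Real.log 2 ≤ 2 * Real.log 2 := by
    have : 2 / D ≤ 2 := by rw [div_le_iff₀ hD0]; linarith
    exact mul_le_mul_of_nonneg_right this hl2.le
  have h4 : D * ε1 ≤ ε / 4 * s + ε1 := by
    have e : (2 / r * s + 1) * ε1 = ε / 4 * s + ε1 := by rw [hε1]; field_simp; ring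
    rw [← e]
    exact mul_le_mul_of_nonneg_right hDu (by rw [hε1]; positivity)
  have h5 : δ * D ≤ ε / 4 * s + δ := by
    have e : δ * (2 / r * s + 1) = ε / 4 * s + δ := by rw [hδ]; field_simp; ring
    rw [← e]
    exact mul_le_mul_of_nonneg_left hDu (by rw [hδ]; positivity)
  have h6 : D * (c + ε1) = D * c + D * ε1 := by ring
  have h7 : 2 / D * (Real.log 2 + s ^ 2) = 2 / D * Real.log 2 + 2 / D * s ^ 2 := by ring
  have h8 : (2 * r + ε) * s = r * s + r * s + ε / 4 * s + ε / 4 * s + ε / 2 * s := by ring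
  rw [h6, h7, h8]
  linarith

end AsymX

open AsymX in
theorem asym : S_ASYM := by
  intro ε hε
  set c : ℝ := Real.log (9 / 5) with hcdef
  have hc0 : 0 < c := Real.log_pos (by norm_num)
  set r : ℝ := Real.sqrt (2 * c) with hrdef
  have hr : 0 < r := Real.sqrt_pos.2 (by positivity)
  have hc : c = r ^ 2 / 2 := by rw [hrdef, Real.sq_sqrt (by positivity)]; ring
  set ε1 : ℝ := ε * r / 8 with hε1
  have hε10 : 0 < ε1 := by positivity
  have hexp1 : Real.exp (-ε1) < 1 := by
    rw [← Real.exp_zero]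
    exact Real.exp_lt_exp.2 (by linarith)
  set η : ℝ := min (1 / 12) (5 / 27 * (1 - Real.exp (-ε1))) with hη
  have hη0 : 0 < η := lt_min (by norm_num) (mul_pos (by norm_num) (by linarith))
  have hη1 : η ≤ 1 / 12 := min_le_left _ _
  have hη2 : 3 * η ≤ 5 / 9 * (1 - Real.exp (-ε1)) := by
    have := min_le_right (1 / 12 : ℝ) (5 / 27 * (1 - Real.exp (-ε1)))
    linarith
  have hb0 : 5 / 9 * Real.exp (-ε1) ≤ 5 / 9 - 3 * η := by linarith
  have hbpos : 0 < 5 / 9 - 3 * η := lt_of_lt_of_le (by positivity) hb0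
  have hlogb : -(c + ε1) ≤ Real.log (5 / 9 - 3 * η) := by
    have h1 := Real.log_le_log (by positivity) hb0
    rw [Real.log_mul (by norm_num) (Real.exp_pos _).ne', Real.log_exp] at h1
    have h2 : Real.log (5 / 9) = -c := by
      rw [hcdef, ← Real.log_inv]; norm_num
    linarith
  -- eventual facts in `s`
  have hlogo : ∀ᶠ x : ℝ in atTop, Real.log x ≤ ε1 * x := by
    have h := Real.isLittleO_log_id_atTop.def hε10
    filter_upwards [h, eventually_ge_atTop 0] with x hx hx0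
    rw [Real.norm_eq_abs, Real.norm_eq_abs, id, abs_of_nonneg hx0] at hx
    exact (le_abs_self _).trans hx
  obtain ⟨X0, hX0⟩ := eventually_atTop.1 hlogo
  have hsq : Tendsto (fun N : ℕ => Real.sqrt (Real.log N)) atTop atTop :=
    Real.tendsto_sqrt_atTop.comp (Real.tendsto_log_atTop.comp tendsto_natCast_atTop_atTop)
  have g1 := hsq.eventually_ge_atTop 1
  have g2 := hsq.eventually_ge_atTop (r / 2 * X0)
  have g3 := hsq.eventually_ge_atTop
    (2 / ε * (3 * Real.log 2 + c + ε1 + ε1 - Real.log η))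
  obtain ⟨N0, hN0⟩ := eventually_atTop.1 (g1.and (g2.and (g3.and (eventually_ge_atTop 1))))
  refine ⟨N0, fun N hN => ?_⟩
  obtain ⟨hs1, hs2, hs3, hN1⟩ := hN0 N hN
  set s : ℝ := Real.sqrt (Real.log N) with hsdef
  have hs0 : 0 < s := by linarith
  have hNpos : (0 : ℝ) < N := by exact_mod_cast hN1
  have hL : Real.log N = s ^ 2 := by
    rw [hsdef, Real.sq_sqrt (Real.log_nonneg (by exact_mod_cast hN1))]
  set D : ℕ := ⌈2 / r * s⌉₊ with hD
  have hq0 : 0 < 2 / r * s := by positivity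
  have hDl : 2 / r * s ≤ D := Nat.le_ceil _
  have hDu : (D : ℝ) ≤ 2 / r * s + 1 := (Nat.ceil_lt_add_one hq0.le).le
  have hD1 : 1 ≤ D := Nat.one_le_ceil_iff.2 hq0
  have hD1' : (1 : ℝ) ≤ D := by exact_mod_cast hD1
  have hD0 : (0 : ℝ) < D := by linarith
  have hX : X0 ≤ D := by
    refine le_trans ?_ hDl
    have : 2 / r * (r / 2 * X0) = X0 := by field_simp
    rw [← this]
    exact mul_le_mul_of_nonneg_left hs2 (by positivity)
  have hlogD := hX0 D hX
  have hK : 3 * Real.log 2 + c + ε1 + ε1 - Real.log η ≤ ε / 2 * s := by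
    have h := mul_le_mul_of_nonneg_left hs3 (show 0 ≤ ε / 2 by positivity)
    have e : ε / 2 * (2 / ε * (3 * Real.log 2 + c + ε1 + ε1 - Real.log η)) =
        3 * Real.log 2 + c + ε1 + ε1 - Real.log η := by field_simp
    linarith
  have hmain := ineq (c := c) (r := r) (ε := ε) (ε1 := ε1) (δ := ε1) (η := η) (s := s)
    (D := (D : ℝ)) hr hc hε hε1 hε1 hs0 hD1' hDl hDu hlogD hK
  refine ⟨D, hD1, η, hη0, hη1, ?_⟩
  -- write the right-hand side as `N * exp (...)`
  have e1 : (5 / 9 - 3 * η) ^ D = Real.exp (D * Real.log (5 / 9 - 3 * η)) := by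
    rw [Real.exp_nat_mul, Real.exp_log hbpos]
  have e2 : (2 * (N : ℝ)) ^ (-(2 : ℝ) / D) = Real.exp (-(2 / D * (Real.log 2 + s ^ 2))) := by
    rw [Real.rpow_def_of_pos (by positivity), Real.log_mul (by norm_num) hNpos.ne', hL]
    congr 1; ring
  have e3 : η / D = Real.exp (Real.log η - Real.log D) := by
    rw [Real.exp_sub, Real.exp_log hη0, Real.exp_log hD0]
  have e4 : (N : ℝ) / 2 = N * Real.exp (-Real.log 2) := by
    rw [Real.exp_neg, Real.exp_log (by norm_num)]; ring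
  have e5 : (N : ℝ) / 2 * (5 / 9 - 3 * η) ^ D * (η / D) * (2 * (N : ℝ)) ^ (-(2 : ℝ) / D) =
      N * Real.exp (-Real.log 2 + D * Real.log (5 / 9 - 3 * η) + (Real.log η - Real.log D) +
        -(2 / D * (Real.log 2 + s ^ 2))) := by
    rw [e1, e2, e3, e4, Real.exp_add, Real.exp_add, Real.exp_add]; ring
  rw [e5]
  refine mul_le_mul_of_nonneg_left (Real.exp_le_exp.2 ?_) hNpos.le
  have h1 : (D : ℝ) * -(c + ε1) ≤ D * Real.log (5 / 9 - 3 * η) :=
    mul_le_mul_of_nonneg_left hlogb hD0.le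
  have h2 : (D : ℝ) * -(c + ε1) = -(D * (c + ε1)) := by ring
  rw [h2] at h1
  have h3 : -(2 * r + ε) * s = -((2 * r + ε) * s) := by ring
  rw [h3]
  linarith

end Vale.Agent.P057
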