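import Vale.Agent.P057.Defs

/-! # P057, module COUNT (helper20): sizes of `good` and of the set of small residues -/

set_option autoImplicit false

namespace Vale.Agent.P057

open Finset

namespace CountX

theorem vma {P : ℕ} [NeZero P] (w : ℤ) (h1 : -(P : ℤ) < w * 2) (h2 : w * 2 ≤ P) :
    ((w : ℤ) : ZMod P).valMinAbs = w :=
  (ZMod.valMinAbs_spec _ _).2 ⟨rfl, h1, h2⟩

end CountX

open CountX in
theorem count : S_COUNT := by
  intro P _ η hP hη hη1
  classical
  have hP0 : (0 : ℝ) < P := by
    have : 0 < P := Nat.pos_of_ne_zero (NeZero.ne P)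
    exact_mod_cast this
  refine ⟨univ.filter (good P η), fun v => by simp, ?_⟩
  set a : ℝ := (1 / 3 - 2 * η) * P with ha
  set b : ℝ := (2 / 9) * P with hb
  have ha0 : 0 < a := by rw [ha]; exact mul_pos (by linarith) hP0
  have hb0 : 0 < b := by rw [hb]; positivity
  have haP : a ≤ P / 3 := by rw [ha]; nlinarith
  obtain ⟨m, hm⟩ : ∃ m : ℕ, ⌈a / 2⌉₊ = m + 1 :=
    Nat.exists_eq_add_of_le' (Nat.one_le_ceil_iff.2 (by positivity))
  obtain ⟨m', hm'⟩ : ∃ m' : ℕ, ⌈(b + 1) / 2⌉₊ = m' + 1 :=
    Nat.exists_eq_add_of_le' (Nat.one_le_ceil_iff.2 (by positivity))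
  have hm1 : (m : ℝ) < a / 2 := by
    have h := Nat.ceil_lt_add_one (a := a / 2) (by positivity)
    rw [hm] at h; push_cast at h; linarith
  have hm2 : a / 2 - 1 ≤ m := by
    have h := Nat.le_ceil (a / 2)
    rw [hm] at h; push_cast at h; linarith
  have hm1' : (m' : ℝ) < (b + 1) / 2 := by
    have h := Nat.ceil_lt_add_one (a := (b + 1) / 2) (by positivity)
    rw [hm'] at h; push_cast at h; linarith
  have hm2' : (b + 1) / 2 - 1 ≤ m' := by
    have h := Nat.le_ceil ((b + 1) / 2)
    rw [hm'] at h; push_cast at h; linarith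
  have hPm : 4 * m < P := by
    have : (4 * m : ℝ) < P := by linarith
    exact_mod_cast this
  have hPm' : 4 * m' ≤ P + 1 := by
    have : (4 * m' : ℝ) < P + 2 := by rw [hb] at hm1'; linarith
    have : 4 * m' < P + 2 := by exact_mod_cast this
    omega
  have e1 : ∀ k ∈ Icc (-(m : ℤ)) m, ((2 * k : ℤ) : ZMod P).valMinAbs = 2 * k := by
    intro k hk
    rw [mem_Icc] at hk
    apply vma <;> omega
  have e2 : ∀ k ∈ Ico (-(m' : ℤ)) m', ((2 * k + 1 : ℤ) : ZMod P).valMinAbs = 2 * k + 1 := by
    intro k hk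
    rw [mem_Ico] at hk
    obtain ⟨t, ht⟩ := hP
    apply vma <;> omega
  set E1 : Finset (ZMod P) := (Icc (-(m : ℤ)) m).image fun k => ((2 * k : ℤ) : ZMod P) with hE1
  set E2 : Finset (ZMod P) := (Ico (-(m' : ℤ)) m').image fun k => ((2 * k + 1 : ℤ) : ZMod P) with hE2
  have c1 : E1.card = 2 * m + 1 := by
    rw [hE1, card_image_of_injOn, Int.card_Icc]
    · omega
    · intro k hk l hl hkl
      have h1 := e1 k hk
      have h2 := e1 l hl
      simp only at hkl
      rw [hkl] at h1
      omega
  have c2 : E2.card = 2 * m' := by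
    rw [hE2, card_image_of_injOn, Int.card_Ico]
    · omega
    · intro k hk l hl hkl
      have h1 := e2 k hk
      have h2 := e2 l hl
      simp only at hkl
      rw [hkl] at h1
      omega
  have hdis : Disjoint E1 E2 := by
    rw [disjoint_left]
    intro v h1 h2
    rw [hE1, mem_image] at h1
    rw [hE2, mem_image] at h2
    obtain ⟨k, hk, rfl⟩ := h1
    obtain ⟨l, hl, hkl⟩ := h2
    have h3 := e1 k hk
    have h4 := e2 l hl
    rw [hkl, h3] at h4
    omega
  have hsub : E1 ∪ E2 ⊆ univ.filter (good P η) := by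
    intro v hv
    rw [mem_filter]
    refine ⟨mem_univ _, ?_⟩
    rcases mem_union.1 hv with h | h
    · rw [hE1, mem_image] at h
      obtain ⟨k, hk, rfl⟩ := h
      left
      rw [e1 k hk]
      refine ⟨even_two_mul k, ?_⟩
      rw [mem_Icc] at hk
      have h1 : |(((2 * k : ℤ) : ℤ) : ℝ)| ≤ 2 * m := by
        rw [abs_le]
        constructor
        · have : -(2 * m : ℤ) ≤ 2 * k := by omega
          exact_mod_cast this
        · have : 2 * k ≤ (2 * m : ℤ) := by omega
          exact_mod_cast this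
      refine lt_of_le_of_lt h1 ?_
      rw [← ha]
      linarith
    · rw [hE2, mem_image] at h
      obtain ⟨k, hk, rfl⟩ := h
      right
      rw [e2 k hk]
      refine ⟨odd_two_mul_add_one k, ?_⟩
      rw [mem_Ico] at hk
      have h1 : |(((2 * k + 1 : ℤ) : ℤ) : ℝ)| ≤ 2 * m' - 1 := by
        rw [abs_le]
        constructor
        · have : -(2 * m' - 1 : ℤ) ≤ 2 * k + 1 := by omega
          exact_mod_cast this
        · have : 2 * k + 1 ≤ (2 * m' - 1 : ℤ) := by omega
          exact_mod_cast this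
      refine lt_of_le_of_lt h1 ?_
      rw [← hb]
      linarith
  have hcard : (2 * m + 1 + 2 * m' : ℝ) ≤ ((univ.filter (good P η)).card : ℝ) := by
    have h := card_le_card hsub
    rw [card_union_of_disjoint hdis, c1, c2] at h
    exact_mod_cast h
  have : (5 / 9 - 2 * η) * P = a + b := by rw [ha, hb]; ring
  rw [this]
  linarith

theorem small : S_SMALL := by
  intro P K _
  classical
  refine ⟨univ.filter fun v : ZMod P => |v.valMinAbs| ≤ (K : ℤ), fun v => by simp, ?_⟩
  have h : ((univ.filter fun v : ZMod P => |v.valMinAbs| ≤ (K : ℤ)).image ZMod.valMinAbs) ⊆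
      Icc (-(K : ℤ)) K := by
    intro w hw
    rw [mem_image] at hw
    obtain ⟨v, hv, rfl⟩ := hw
    rw [mem_filter] at hv
    rw [mem_Icc]
    exact abs_le.1 hv.2
  have h2 := card_le_card h
  rw [card_image_of_injective _ ZMod.injective_valMinAbs, Int.card_Icc] at h2
  omega

end Vale.Agent.P057
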