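import Mathlib

/-! P057, Q2 for `k = 4`: an improved lower bound for `r_4(N)`.  Definitions and modules. -/

set_option autoImplicit false

namespace Vale.Agent.P057

noncomputable section

/-- `A` contains no `k`-term arithmetic progression `a, a+d, …, a+(k-1)d` with `d > 0`. -/
def NoAP (k : ℕ) (A : Finset ℕ) : Prop :=
  ∀ a d : ℕ, 0 < d → ¬ ∀ j : ℕ, j < k → a + j * d ∈ A

/-- `r_k(N)`: the largest cardinality of a subset of `{1,…,N}` without `k`-term progressions. -/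
def r (k N : ℕ) : ℕ :=
  open Classical in
  ((Finset.Icc 1 N).powerset.filter (fun A => NoAP k A)).sup Finset.card

/-- the admissible residues (density `5/9 - 2η`). -/
def good (P : ℕ) (η : ℝ) (v : ZMod P) : Prop :=
  (Even v.valMinAbs ∧ |(v.valMinAbs : ℝ)| < (1 / 3 - 2 * η) * P) ∨
  (Odd v.valMinAbs ∧ |(v.valMinAbs : ℝ)| < (2 / 9) * P)

/-- the weight. -/
def g (P : ℕ) (v : ZMod P) : ℝ :=
  open Classical in
  9 * (v.valMinAbs : ℝ) ^ 2 + if Odd v.valMinAbs then (P : ℝ) ^ 2 else 0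

/-- the key inequality on four-term progressions mod `P` inside `good`. -/
def S_KEY : Prop :=
  ∀ (P : ℕ) (η : ℝ), Odd P → 0 < η → η ≤ 1 / 12 → ∀ v d : ZMod P,
    good P η v → good P η (v + d) → good P η (v + 2 * d) → good P η (v + 3 * d) →
    96 * η * (d.valMinAbs : ℝ) ^ 2 ≤ g P v + g P (v + 3 * d) - g P (v + d) - g P (v + 2 * d)

/-- size of `good`. -/
def S_COUNT : Prop :=
  ∀ (P : ℕ) [NeZero P] (η : ℝ), Odd P → 0 < η → η ≤ 1 / 12 →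
    ∃ S : Finset (ZMod P), (∀ v, v ∈ S ↔ good P η v) ∧ (5 / 9 - 2 * η) * P - 3 ≤ (S.card : ℝ)

/-- small residues. -/
def S_SMALL : Prop :=
  ∀ (P K : ℕ) [NeZero P],
    ∃ B : Finset (ZMod P), (∀ v : ZMod P, v ∈ B ↔ |v.valMinAbs| ≤ (K : ℤ)) ∧ B.card ≤ 2 * K + 1

/-- random translate/dilate (averaging over `(α, θ) ∈ ((ZMod P)^D)^2`), pigeonhole over the value
of `∑ g` and deletion of one element from each progression. -/
def S_PROB : Prop :=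
  ∀ (P N D : ℕ) [Fact P.Prime], N < P → 1 ≤ N → ∀ (S B : Finset (ZMod P)) (h : ZMod P → ℝ)
    (δ Gm : ℝ), 0 < δ → (∀ v ∈ S, 0 ≤ h v ∧ h v ≤ Gm) →
    (∀ v d : Fin D → ZMod P,
      (∀ i, v i ∈ S ∧ v i + d i ∈ S ∧ v i + 2 * d i ∈ S ∧ v i + 3 * d i ∈ S) →
      ∑ i, (h (v i) + h (v i + 3 * d i) - h (v i + d i) - h (v i + 2 * d i)) < 2 * δ →
      ∀ i, d i ∈ B) →
    (N : ℝ) * ((B.card : ℝ) / P) ^ D ≤ 1 / 2 →
    ∃ A : Finset ℕ, A ⊆ Finset.Icc 1 N ∧ NoAP 4 A ∧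
      (N : ℝ) / 2 * ((S.card : ℝ) / P) ^ D / (D * Gm / δ + 1) ≤ (A.card : ℝ)

/-- asymptotics. -/
def S_ASYM : Prop :=
  ∀ ε : ℝ, 0 < ε → ∃ N₀ : ℕ, ∀ N : ℕ, N₀ ≤ N → ∃ D : ℕ, 1 ≤ D ∧ ∃ η : ℝ, 0 < η ∧ η ≤ 1 / 12 ∧
    (N : ℝ) * Real.exp (-(2 * Real.sqrt (2 * Real.log (9 / 5)) + ε) * Real.sqrt (Real.log N)) ≤
      (N : ℝ) / 2 * (5 / 9 - 3 * η) ^ D * (η / D) * (2 * (N : ℝ)) ^ (-(2 : ℝ) / D)

/-- the theorem. -/
def S_FINAL : Prop :=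
  ∀ ε : ℝ, 0 < ε → ∃ N₀ : ℕ, ∀ N : ℕ, N₀ ≤ N →
    (N : ℝ) * Real.exp (-(2 * Real.sqrt (2 * Real.log (9 / 5)) + ε) * Real.sqrt (Real.log N)) ≤
      (r 4 N : ℝ)

end

end Vale.Agent.P057
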