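import Vale.Agent.P057.Defs

/-! P057: assembly (helper27). -/

set_option autoImplicit false

namespace Vale.Agent.P057

/-- window length -/
theorem win_bound (D P δ η ρ : ℝ) (hD : 1 ≤ D) (hP : 0 < P) (hη : 0 < η) (hη1 : η ≤ 1 / 12)
    (hρ0 : 0 < ρ) (hρ1 : ρ ≤ 1) (hδ : 3 * η * (ρ * P) ^ 2 ≤ δ) :
    D * (2 * P ^ 2) / δ + 1 ≤ D / (η * ρ ^ 2) := by
  have hpos : 0 < 3 * η * (ρ * P) ^ 2 := by positivity
  have h9 : D * (2 * P ^ 2) / δ ≤ D * (2 * P ^ 2) / (3 * η * (ρ * P) ^ 2) :=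
    div_le_div_of_nonneg_left (by positivity) hpos hδ
  have h10 : D * (2 * P ^ 2) / (3 * η * (ρ * P) ^ 2) = (2 / 3) * (D / (η * ρ ^ 2)) := by
    have hP0 : P ≠ 0 := hP.ne'
    have hη0 : η ≠ 0 := hη.ne'
    have hρ00 : ρ ≠ 0 := hρ0.ne'
    field_simp
  have h11 : (3 : ℝ) ≤ D / (η * ρ ^ 2) := by
    rw [le_div_iff₀ (by positivity)]
    have h12 : ρ ^ 2 ≤ 1 := pow_le_one₀ hρ0.le hρ1
    have : η * ρ ^ 2 ≤ 1 / 12 * 1 :=
      mul_le_mul hη1 h12 (by positivity) (by norm_num)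
    linarith
  linarith

/-- numerical comparison -/
theorem final_cmp (N x y W V η D ρ : ℝ) (hN : 0 < N) (hx : 0 ≤ x) (hxy : x ≤ y) (hW : 0 < W)
    (hWV : W ≤ V) (hV : V = D / (η * ρ ^ 2)) (hD : 0 < D) (hη : 0 < η) (hρ : 0 < ρ) :
    N / 2 * x * (η / D) * ρ ^ 2 ≤ N / 2 * y / W := by
  have h1 : N / 2 * x * (η / D) * ρ ^ 2 = N / 2 * x / V := by
    rw [hV]
    have hη0 : η ≠ 0 := hη.ne'
    have hρ00 : ρ ≠ 0 := hρ.ne'
    have hD0 : D ≠ 0 := hD.ne'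
    field_simp
  rw [h1]
  have hV0 : 0 < V := lt_of_lt_of_le hW hWV
  have hy : 0 ≤ y := hx.trans hxy
  have h2 : N / 2 * x ≤ N / 2 * y := mul_le_mul_of_nonneg_left hxy (by linarith)
  have h3 : 0 ≤ N / 2 * y := by positivity
  exact div_le_div₀ h3 h2 hW hWV

/-- bound for the weight on `good` -/
theorem g_bound (P : ℕ) (η : ℝ) (hη : 0 < η) (v : ZMod P) (hv : good P η v) :
    0 ≤ g P v ∧ g P v ≤ 2 * (P : ℝ) ^ 2 := by
  have hP0 : (0 : ℝ) ≤ P := Nat.cast_nonneg P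
  unfold g
  constructor
  · split_ifs <;> positivity
  · rcases hv with ⟨he, hlt⟩ | ⟨ho, hlt⟩
    · rw [if_neg (Int.not_odd_iff_even.mpr he)]
      have h6 : |(v.valMinAbs : ℝ)| ≤ P / 3 := by nlinarith
      have h7 : (v.valMinAbs : ℝ) ^ 2 ≤ ((P : ℝ) / 3) ^ 2 := by
        rw [← sq_abs]; exact pow_le_pow_left₀ (abs_nonneg _) h6 2
      nlinarith
    · rw [if_pos ho]
      have h7 : (v.valMinAbs : ℝ) ^ 2 ≤ ((2 / 9 : ℝ) * P) ^ 2 := by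
        rw [← sq_abs]; exact pow_le_pow_left₀ (abs_nonneg _) hlt.le 2
      nlinarith

/-- the steps are small -/
theorem step_small (hK : S_KEY) (P K D : ℕ) (η : ℝ) (hPodd : Odd P) (hη : 0 < η)
    (hη1 : η ≤ 1 / 12) (v d : Fin D → ZMod P)
    (hvd : ∀ i, good P η (v i) ∧ good P η (v i + d i) ∧ good P η (v i + 2 * d i) ∧
      good P η (v i + 3 * d i))
    (hsum : ∑ i, (g P (v i) + g P (v i + 3 * d i) - g P (v i + d i) - g P (v i + 2 * d i)) <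
      2 * (48 * η * ((K : ℝ) + 1) ^ 2)) (i : Fin D) :
    |(d i).valMinAbs| ≤ (K : ℤ) := by
  by_contra hcon
  have hcon' : (K : ℤ) < |(d i).valMinAbs| := not_le.mp hcon
  have hterm : ∀ j, 96 * η * ((d j).valMinAbs : ℝ) ^ 2 ≤
      g P (v j) + g P (v j + 3 * d j) - g P (v j + d j) - g P (v j + 2 * d j) := fun j =>
    hK P η hPodd hη hη1 (v j) (d j) (hvd j).1 (hvd j).2.1 (hvd j).2.2.1 (hvd j).2.2.2
  have h1 : 96 * η * ((d i).valMinAbs : ℝ) ^ 2 ≤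
      ∑ j, (g P (v j) + g P (v j + 3 * d j) - g P (v j + d j) - g P (v j + 2 * d j)) :=
    (hterm i).trans (Finset.single_le_sum
      (f := fun j => g P (v j) + g P (v j + 3 * d j) - g P (v j + d j) - g P (v j + 2 * d j))
      (fun j _ => le_trans (by positivity) (hterm j)) (Finset.mem_univ i))
  have h2 : ((K : ℝ) + 1) ≤ |((d i).valMinAbs : ℝ)| := by
    have : (K : ℤ) + 1 ≤ |(d i).valMinAbs| := by omega
    exact_mod_cast this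
  have h3 : ((K : ℝ) + 1) ^ 2 ≤ ((d i).valMinAbs : ℝ) ^ 2 := by
    rw [← sq_abs ((d i).valMinAbs : ℝ)]
    exact pow_le_pow_left₀ (by positivity) h2 2
  have h4 : 96 * η * ((K : ℝ) + 1) ^ 2 ≤ 96 * η * ((d i).valMinAbs : ℝ) ^ 2 :=
    mul_le_mul_of_nonneg_left h3 (by linarith)
  have h5 : 2 * (48 * η * ((K : ℝ) + 1) ^ 2) = 96 * η * ((K : ℝ) + 1) ^ 2 := by ring
  linarith

/-- the set gives a lower bound for `r` -/
theorem card_le_r (N : ℕ) (A : Finset ℕ) (hAsub : A ⊆ Finset.Icc 1 N) (hAfree : NoAP 4 A) :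
    (A.card : ℝ) ≤ (r 4 N : ℝ) := by
  have : A.card ≤ r 4 N := by
    classical
    unfold r
    refine Finset.le_sup (f := Finset.card) ?_
    simp only [Finset.mem_filter, Finset.mem_powerset]
    exact ⟨hAsub, hAfree⟩
  exact_mod_cast this

/-- choice of `ρ` -/
theorem rho_facts (N D : ℕ) (hN : 1 ≤ N) (hD : 1 ≤ D) :
    ∃ ρ : ℝ, 0 < ρ ∧ ρ ≤ 1 ∧ ρ ^ D = 1 / (2 * N) ∧ (2 * (N : ℝ)) ^ (-(2 : ℝ) / D) = ρ ^ 2 := by
  have hNr : (1 : ℝ) ≤ N := by exact_mod_cast hN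
  have hDr : (1 : ℝ) ≤ D := by exact_mod_cast hD
  have hD0 : (0 : ℝ) < D := by linarith
  have h2N : (1 : ℝ) ≤ 2 * N := by linarith
  have h2N0 : (0 : ℝ) < 2 * N := by linarith
  refine ⟨(2 * (N : ℝ)) ^ (-(1 : ℝ) / D), Real.rpow_pos_of_pos h2N0 _, ?_, ?_, ?_⟩
  · apply Real.rpow_le_one_of_one_le_of_nonpos h2N
    exact div_nonpos_of_nonpos_of_nonneg (by norm_num) hD0.le
  · rw [← Real.rpow_natCast, ← Real.rpow_mul h2N0.le]
    have : (-(1 : ℝ) / D * D) = -1 := by field_simp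
    rw [this, Real.rpow_neg_one, one_div]
  · rw [← Real.rpow_natCast, ← Real.rpow_mul h2N0.le]
    congr 1
    push_cast
    ring

/-- the finite inequality -/
theorem main_ineq (hK : S_KEY) (hC : S_COUNT) (hS : S_SMALL) (hP : S_PROB)
    (N D : ℕ) (hN : 1 ≤ N) (hD : 1 ≤ D) (η : ℝ) (hη : 0 < η) (hη1 : η ≤ 1 / 12) :
    (N : ℝ) / 2 * (5 / 9 - 3 * η) ^ D * (η / D) * (2 * (N : ℝ)) ^ (-(2 : ℝ) / D) ≤ (r 4 N : ℝ) := by
  have hNr : (1 : ℝ) ≤ N := by exact_mod_cast hN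
  have hDr : (1 : ℝ) ≤ D := by exact_mod_cast hD
  have hD0 : (0 : ℝ) < D := by linarith
  obtain ⟨ρ, hρ0, hρ1, hρD, hρ2⟩ := rho_facts N D hN hD
  -- a large prime
  obtain ⟨P, hPge, hPp⟩ := Nat.exists_infinite_primes (N + 3 + ⌈3 / η⌉₊ + ⌈2 / ρ⌉₊)
  have hfact : Fact P.Prime := ⟨hPp⟩
  have hPN : N < P := by omega
  have hPodd : Odd P := hPp.odd_of_ne_two (by omega)
  have hPr : (0 : ℝ) < P := by exact_mod_cast hPp.pos
  have hP1 : 3 / η ≤ P := by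
    have h1 : (3 / η : ℝ) ≤ ⌈3 / η⌉₊ := Nat.le_ceil _
    have h2 : ((⌈3 / η⌉₊ : ℕ) : ℝ) ≤ P := by exact_mod_cast (by omega : ⌈3 / η⌉₊ ≤ P)
    linarith
  have hP2 : 2 / ρ ≤ P := by
    have h1 : (2 / ρ : ℝ) ≤ ⌈2 / ρ⌉₊ := Nat.le_ceil _
    have h2 : ((⌈2 / ρ⌉₊ : ℕ) : ℝ) ≤ P := by exact_mod_cast (by omega : ⌈2 / ρ⌉₊ ≤ P)
    linarith
  have hP1' : 3 ≤ η * P := by
    rw [div_le_iff₀ hη] at hP1; linarith
  have hP2' : 2 ≤ ρ * P := by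
    rw [div_le_iff₀ hρ0] at hP2; linarith
  -- K
  obtain ⟨K, hK1, hK2⟩ : ∃ K : ℕ, (K : ℝ) ≤ ρ * P / 4 ∧ ρ * P / 4 < K + 1 :=
    ⟨⌊ρ * P / 4⌋₊, Nat.floor_le (by positivity), Nat.lt_floor_add_one _⟩
  obtain ⟨S, hSmem, hScard⟩ := hC P η hPodd hη hη1
  obtain ⟨B, hBmem, hBcard⟩ := hS P K
  have hδ0 : 0 < 48 * η * ((K : ℝ) + 1) ^ 2 := by positivity
  have hB1 : (B.card : ℝ) ≤ 2 * K + 1 := by exact_mod_cast hBcard
  have hB2 : (B.card : ℝ) / P ≤ ρ := by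
    rw [div_le_iff₀ hPr]; linarith
  have hNB : (N : ℝ) * ((B.card : ℝ) / P) ^ D ≤ 1 / 2 := by
    have h1 : ((B.card : ℝ) / P) ^ D ≤ ρ ^ D := pow_le_pow_left₀ (by positivity) hB2 D
    have h2 : (N : ℝ) * ((B.card : ℝ) / P) ^ D ≤ N * ρ ^ D :=
      mul_le_mul_of_nonneg_left h1 (by linarith)
    have h3 : (N : ℝ) * ρ ^ D = 1 / 2 := by
      rw [hρD]
      have : (N : ℝ) ≠ 0 := by linarith
      field_simp
    linarith
  obtain ⟨A, hAsub, hAfree, hAcard⟩ := hP P N D hPN hN S B (g P) (48 * η * ((K : ℝ) + 1) ^ 2)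
    (2 * (P : ℝ) ^ 2) hδ0 (fun v hv => g_bound P η hη v ((hSmem v).mp hv))
    (fun v d hvd hsum i => (hBmem _).mpr (step_small hK P K D η hPodd hη hη1 v d
      (fun i => ⟨(hSmem _).mp (hvd i).1, (hSmem _).mp (hvd i).2.1, (hSmem _).mp (hvd i).2.2.1,
        (hSmem _).mp (hvd i).2.2.2⟩) hsum i)) hNB
  have hr : (A.card : ℝ) ≤ (r 4 N : ℝ) := card_le_r N A hAsub hAfree
  refine le_trans ?_ (hAcard.trans hr)
  -- numerical comparison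
  rw [hρ2]
  have hs1 : 5 / 9 - 3 * η ≤ (S.card : ℝ) / P := by
    rw [le_div_iff₀ hPr]
    have : (5 / 9 - 3 * η) * P = (5 / 9 - 2 * η) * P - η * P := by ring
    linarith
  have hs0 : 0 ≤ 5 / 9 - 3 * η := by linarith
  have hs2 : (5 / 9 - 3 * η) ^ D ≤ ((S.card : ℝ) / P) ^ D := pow_le_pow_left₀ hs0 hs1 D
  have hδ2 : 3 * η * (ρ * P) ^ 2 ≤ 48 * η * ((K : ℝ) + 1) ^ 2 := by
    have h8 : (ρ * P / 4) ^ 2 ≤ ((K : ℝ) + 1) ^ 2 :=
      pow_le_pow_left₀ (by positivity) hK2.le 2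
    have h9 : 48 * η * (ρ * P / 4) ^ 2 ≤ 48 * η * ((K : ℝ) + 1) ^ 2 :=
      mul_le_mul_of_nonneg_left h8 (by linarith)
    have h10 : 48 * η * (ρ * P / 4) ^ 2 = 3 * η * (ρ * P) ^ 2 := by ring
    linarith
  have hwin := win_bound (D : ℝ) (P : ℝ) _ η ρ hDr hPr hη hη1 hρ0 hρ1 hδ2
  have hden : 0 < (D : ℝ) * (2 * (P : ℝ) ^ 2) / (48 * η * ((K : ℝ) + 1) ^ 2) + 1 := by positivity
  exact final_cmp (N : ℝ) _ _ _ _ η D ρ (by linarith) (pow_nonneg hs0 D) hs2 hden hwin rfl hD0 hη hρ0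

/-- module FINAL -/
theorem final (hK : S_KEY) (hC : S_COUNT) (hS : S_SMALL) (hP : S_PROB) (hA : S_ASYM) :
    S_FINAL := by
  intro ε hε
  obtain ⟨N₀, hN₀⟩ := hA ε hε
  refine ⟨max N₀ 1, fun N hN => ?_⟩
  obtain ⟨D, hD, η, hη, hη1, hle⟩ := hN₀ N ((le_max_left _ _).trans hN)
  exact hle.trans (main_ineq hK hC hS hP N D ((le_max_right _ _).trans hN) hD η hη hη1)

end Vale.Agent.P057
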