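import Vale.Agent.P057.Defs

/-! P057: the key inequality (module KEY, helper27). -/

set_option autoImplicit false

namespace Vale.Agent.P057

namespace KEY

/-- admissibility of an integer representative, real form -/
def Gd (p η : ℝ) (w : ℤ) : Prop :=
  (Even w ∧ |(w : ℝ)| < (1 / 3 - 2 * η) * p) ∨ (Odd w ∧ |(w : ℝ)| < (2 / 9) * p)

/-- weight of an integer representative -/
noncomputable def G (p : ℝ) (w : ℤ) : ℝ :=
  open Classical in 9 * (w : ℝ) ^ 2 + if Odd w then p ^ 2 else 0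

theorem G_even {p : ℝ} {w : ℤ} (h : Even w) : G p w = 9 * (w : ℝ) ^ 2 := by
  unfold G
  rw [if_neg (Int.not_odd_iff_even.mpr h)]
  ring

theorem G_odd {p : ℝ} {w : ℤ} (h : Odd w) : G p w = 9 * (w : ℝ) ^ 2 + p ^ 2 := by
  unfold G
  rw [if_pos h]

theorem Gd.lt {p η : ℝ} {w : ℤ} (hp : 0 < p) (hη : 0 < η) (h : Gd p η w) :
    |(w : ℝ)| < p / 3 := by
  rcases h with h | h
  · have := h.2
    nlinarith
  · have := h.2
    nlinarith

theorem Gd.even_lt {p η : ℝ} {w : ℤ} (h : Gd p η w) (he : Even w) :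
    |(w : ℝ)| < (1 / 3 - 2 * η) * p := by
  rcases h with h | h
  · exact h.2
  · exact absurd he (Int.not_even_iff_odd.mpr h.1)

theorem Gd.odd_lt {p η : ℝ} {w : ℤ} (h : Gd p η w) (he : Odd w) :
    |(w : ℝ)| < (2 / 9) * p := by
  rcases h with h | h
  · exact absurd h.1 (Int.not_even_iff_odd.mpr he)
  · exact h.2

theorem G_ge (p : ℝ) (w : ℤ) : 9 * (w : ℝ) ^ 2 ≤ G p w := by
  rcases Int.even_or_odd w with h | h
  · rw [G_even h]
  · rw [G_odd h]; nlinarith [sq_nonneg p]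

theorem G_le (p : ℝ) (w : ℤ) : G p w ≤ 9 * (w : ℝ) ^ 2 + p ^ 2 := by
  rcases Int.even_or_odd w with h | h
  · rw [G_even h]; nlinarith [sq_nonneg p]
  · rw [G_odd h]

/-- case `(s, s)` -/
theorem case_same {p s : ℝ} (hp : 0 < p) {w0 w1 w2 w3 : ℤ} (hs : s = 1 ∨ s = -1)
    (b1 : |(w1 : ℝ)| < p / 3) (b2 : |(w2 : ℝ)| < p / 3)
    (h1 : (w0 : ℝ) = 2 * w1 - w2 + s * p) (h2 : (w3 : ℝ) = 2 * w2 - w1 + s * p) :
    4 * p ^ 2 ≤ G p w0 + G p w3 - G p w1 - G p w2 := by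
  have g0 := G_ge p w0
  have g3 := G_ge p w3
  have g1 := G_le p w1
  have g2 := G_le p w2
  rw [h1] at g0
  rw [h2] at g3
  obtain ⟨b1l, b1r⟩ := abs_lt.mp b1
  obtain ⟨b2l, b2r⟩ := abs_lt.mp b2
  rcases hs with rfl | rfl
  · nlinarith [sq_nonneg ((w1 : ℝ) - w2), mul_pos hp (show (0 : ℝ) < w1 + w2 + 2 * p / 3 by linarith)]
  · nlinarith [sq_nonneg ((w1 : ℝ) - w2), mul_pos hp (show (0 : ℝ) < 2 * p / 3 - w1 - w2 by linarith)]

/-- case `(s, -s)` -/
theorem case_opp {p s η : ℝ} (hp : 0 < p) (hη : 0 < η) {w0 w1 w2 w3 : ℤ}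
    (hs : s = 1 ∨ s = -1)
    (d0 : Gd p η w0) (d1 : Gd p η w1) (d2 : Gd p η w2) (d3 : Gd p η w3)
    (h1 : (w0 : ℝ) = 2 * w1 - w2 + s * p) (h2 : (w3 : ℝ) = 2 * w2 - w1 - s * p)
    (q1 : Odd (w0 + w2)) (q2 : Odd (w1 + w3)) :
    24 * η * p ^ 2 ≤ G p w0 + G p w3 - G p w1 - G p w2 := by
  rcases Int.even_or_odd w1 with e1 | e1 <;> rcases Int.even_or_odd w2 with e2 | e2
  · -- both even
    have o0 : Odd w0 := by
      rcases Int.even_or_odd w0 with h | h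
      · exact absurd (h.add e2) (Int.not_even_iff_odd.mpr q1)
      · exact h
    have o3 : Odd w3 := by
      rcases Int.even_or_odd w3 with h | h
      · exact absurd (e1.add h) (Int.not_even_iff_odd.mpr q2)
      · exact h
    rw [G_odd o0, G_odd o3, G_even e1, G_even e2, h1, h2]
    obtain ⟨b1l, b1r⟩ := abs_lt.mp (d1.even_lt e1)
    obtain ⟨b2l, b2r⟩ := abs_lt.mp (d2.even_lt e2)
    rcases hs with rfl | rfl
    · have x1 : 0 < 2 * p - 3 * ((w2 : ℝ) - w1) - 12 * η * p := by nlinarith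
      have x2 : 0 < 5 * p - 6 * ((w2 : ℝ) - w1) - p := by nlinarith [mul_pos hη hp]
      nlinarith [mul_pos x1 x2, mul_pos x1 hp, mul_pos (mul_pos hη hp) x2]
    · have x1 : 0 < 2 * p - 3 * ((w1 : ℝ) - w2) - 12 * η * p := by nlinarith
      have x2 : 0 < 5 * p - 6 * ((w1 : ℝ) - w2) - p := by nlinarith [mul_pos hη hp]
      nlinarith [mul_pos x1 x2, mul_pos x1 hp, mul_pos (mul_pos hη hp) x2]
  · -- w1 even, w2 odd : w3 is odd
    exfalso
    have o3 : Odd w3 := by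
      rcases Int.even_or_odd w3 with h | h
      · exact absurd (e1.add h) (Int.not_even_iff_odd.mpr q2)
      · exact h
    obtain ⟨b1l, b1r⟩ := abs_lt.mp (d1.even_lt e1)
    obtain ⟨b2l, b2r⟩ := abs_lt.mp (d2.odd_lt e2)
    obtain ⟨b3l, b3r⟩ := abs_lt.mp (d3.odd_lt o3)
    rw [h2] at b3l b3r
    rcases hs with rfl | rfl
    · nlinarith [mul_pos hη hp]
    · nlinarith [mul_pos hη hp]
  · -- w1 odd, w2 even : w0 is odd
    exfalso
    have o0 : Odd w0 := by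
      rcases Int.even_or_odd w0 with h | h
      · exact absurd (h.add e2) (Int.not_even_iff_odd.mpr q1)
      · exact h
    obtain ⟨b1l, b1r⟩ := abs_lt.mp (d1.odd_lt e1)
    obtain ⟨b2l, b2r⟩ := abs_lt.mp (d2.even_lt e2)
    obtain ⟨b0l, b0r⟩ := abs_lt.mp (d0.odd_lt o0)
    rw [h1] at b0l b0r
    rcases hs with rfl | rfl
    · nlinarith [mul_pos hη hp]
    · nlinarith [mul_pos hη hp]
  · -- both odd : w0 is even
    exfalso
    have e0 : Even w0 := by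
      rcases Int.even_or_odd w0 with h | h
      · exact h
      · exact absurd (h.add_odd e2) (Int.not_even_iff_odd.mpr q1)
    obtain ⟨b1l, b1r⟩ := abs_lt.mp (d1.odd_lt e1)
    obtain ⟨b2l, b2r⟩ := abs_lt.mp (d2.odd_lt e2)
    obtain ⟨b0l, b0r⟩ := abs_lt.mp (d0.even_lt e0)
    rw [h1] at b0l b0r
    rcases hs with rfl | rfl
    · nlinarith [mul_pos hη hp]
    · nlinarith [mul_pos hη hp]

/-- the four representatives -/
theorem core {P : ℕ} {η : ℝ} (hP : Odd P) (hη : 0 < η) (hη1 : η ≤ 1 / 12)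
    {w0 w1 w2 w3 e1 e2 : ℤ}
    (h1 : w0 - 2 * w1 + w2 = P * e1) (h2 : w1 - 2 * w2 + w3 = P * e2)
    (d0 : Gd P η w0) (d1 : Gd P η w1) (d2 : Gd P η w2) (d3 : Gd P η w3) :
    (e1 = 0 ∧ e2 = 0) ∨
      24 * η * (P : ℝ) ^ 2 ≤ G P w0 + G P w3 - G P w1 - G P w2 := by
  have hp : (0 : ℝ) < P := by exact_mod_cast hP.pos
  have hpz : (0 : ℤ) < P := by exact_mod_cast hP.pos
  obtain ⟨a0, b0⟩ := abs_lt.mp (d0.lt hp hη)
  obtain ⟨a1, b1⟩ := abs_lt.mp (d1.lt hp hη)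
  obtain ⟨a2, b2⟩ := abs_lt.mp (d2.lt hp hη)
  obtain ⟨a3, b3⟩ := abs_lt.mp (d3.lt hp hη)
  have r1 : (w0 : ℝ) - 2 * w1 + w2 = P * e1 := by exact_mod_cast h1
  have r2 : (w1 : ℝ) - 2 * w2 + w3 = P * e2 := by exact_mod_cast h2
  have q1 : |(e1 : ℝ)| < 2 := by
    rw [abs_lt]
    constructor
    · by_contra hc
      push Not at hc
      nlinarith
    · by_contra hc
      push Not at hc
      nlinarith
  have q2 : |(e2 : ℝ)| < 2 := by
    rw [abs_lt]
    constructor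
    · by_contra hc
      push Not at hc
      nlinarith
    · by_contra hc
      push Not at hc
      nlinarith
  have z1 : -2 < e1 ∧ e1 < 2 := by
    obtain ⟨x, y⟩ := abs_lt.mp q1
    constructor
    · exact_mod_cast x
    · exact_mod_cast y
  have z2 : -2 < e2 ∧ e2 < 2 := by
    obtain ⟨x, y⟩ := abs_lt.mp q2
    constructor
    · exact_mod_cast x
    · exact_mod_cast y
  have c1 : e1 = 0 ∨ e1 = 1 ∨ e1 = -1 := by omega
  have c2 : e2 = 0 ∨ e2 = 1 ∨ e2 = -1 := by omega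
  have hPz : Odd (P : ℤ) := by exact_mod_cast hP
  obtain ⟨m, hm⟩ := hPz
  have big : (4 : ℝ) * (P : ℝ) ^ 2 ≥ 24 * η * (P : ℝ) ^ 2 := by
    nlinarith [sq_nonneg (P : ℝ)]
  rcases c1 with rfl | rfl | rfl <;> rcases c2 with rfl | rfl | rfl
  · exact Or.inl ⟨rfl, rfl⟩
  · exfalso; push_cast at r1 r2; linarith
  · exfalso; push_cast at r1 r2; linarith
  · exfalso; push_cast at r1 r2; linarith
  · right
    push_cast at r1 r2
    have := case_same (s := 1) hp (Or.inl rfl) (w0 := w0) (w1 := w1) (w2 := w2) (w3 := w3)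
      (abs_lt.mpr ⟨a1, b1⟩) (abs_lt.mpr ⟨a2, b2⟩) (by linarith) (by linarith)
    linarith
  · right
    push_cast at r1 r2
    exact case_opp (s := 1) hp hη (Or.inl rfl) d0 d1 d2 d3 (by linarith) (by linarith)
      (by rw [Int.odd_iff]; omega) (by rw [Int.odd_iff]; omega)
  · exfalso; push_cast at r1 r2; linarith
  · right
    push_cast at r1 r2
    exact case_opp (s := -1) hp hη (Or.inr rfl) d0 d1 d2 d3 (by linarith) (by linarith)
      (by rw [Int.odd_iff]; omega) (by rw [Int.odd_iff]; omega)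
  · right
    push_cast at r1 r2
    have := case_same (s := -1) hp (Or.inr rfl) (w0 := w0) (w1 := w1) (w2 := w2) (w3 := w3)
      (abs_lt.mpr ⟨a1, b1⟩) (abs_lt.mpr ⟨a2, b2⟩) (by linarith) (by linarith)
    linarith

end KEY

/-- module KEY -/
theorem key : S_KEY := by
  intro P η hP hη hη1 v d g0 g1 g2 g3
  have : NeZero P := ⟨hP.pos.ne'⟩
  have hp : (0 : ℝ) < P := by exact_mod_cast hP.pos
  set w0 := v.valMinAbs with hw0
  set w1 := (v + d).valMinAbs with hw1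
  set w2 := (v + 2 * d).valMinAbs with hw2
  set w3 := (v + 3 * d).valMinAbs with hw3
  have c0 : ((w0 : ℤ) : ZMod P) = v := ZMod.coe_valMinAbs v
  have c1 : ((w1 : ℤ) : ZMod P) = v + d := ZMod.coe_valMinAbs _
  have c2 : ((w2 : ℤ) : ZMod P) = v + 2 * d := ZMod.coe_valMinAbs _
  have c3 : ((w3 : ℤ) : ZMod P) = v + 3 * d := ZMod.coe_valMinAbs _
  have s1 : ((w0 - 2 * w1 + w2 : ℤ) : ZMod P) = 0 := by
    push_cast
    rw [c0, c1, c2]; ring
  have s2 : ((w1 - 2 * w2 + w3 : ℤ) : ZMod P) = 0 := by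
    push_cast
    rw [c1, c2, c3]; ring
  obtain ⟨e1, h1⟩ := (ZMod.intCast_zmod_eq_zero_iff_dvd _ P).mp s1
  obtain ⟨e2, h2⟩ := (ZMod.intCast_zmod_eq_zero_iff_dvd _ P).mp s2
  have hgG : ∀ x : ZMod P, g P x = KEY.G P x.valMinAbs := fun x => rfl
  have hdle : d.valMinAbs.natAbs ≤ P / 2 := ZMod.natAbs_valMinAbs_le d
  have hdr : |(d.valMinAbs : ℝ)| ≤ P / 2 := by
    have h3 : ((d.valMinAbs.natAbs : ℕ) : ℝ) ≤ ((P / 2 : ℕ) : ℝ) := by exact_mod_cast hdle
    have h4 : ((P / 2 : ℕ) : ℝ) ≤ (P : ℝ) / 2 := Nat.cast_div_le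
    have h5 : ((d.valMinAbs.natAbs : ℕ) : ℝ) = |(d.valMinAbs : ℝ)| := by
      rw [Nat.cast_natAbs]; push_cast; rfl
    linarith
  rcases KEY.core hP hη hη1 h1 h2 g0 g1 g2 g3 with ⟨rfl, rfl⟩ | hbig
  · -- genuine progression
    have k1 : w0 - 2 * w1 + w2 = 0 := by rw [h1]; ring
    have k2 : w1 - 2 * w2 + w3 = 0 := by rw [h2]; ring
    have hpar0 : Odd w0 ↔ Odd w2 := by
      rw [Int.odd_iff, Int.odd_iff]; omega
    have hpar1 : Odd w1 ↔ Odd w3 := by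
      rw [Int.odd_iff, Int.odd_iff]; omega
    have hmin : d.valMinAbs.natAbs ≤ (w1 - w0).natAbs := by
      refine ZMod.natAbs_min_of_le_div_two P _ _ ?_ hdle
      rw [Int.cast_sub, c1, c0, ZMod.coe_valMinAbs]; ring
    have hminr : (d.valMinAbs : ℝ) ^ 2 ≤ ((w1 : ℝ) - w0) ^ 2 := by
      have h6 : (d.valMinAbs : ℤ) ^ 2 ≤ (w1 - w0) ^ 2 := by
        rw [← Int.natAbs_sq, ← Int.natAbs_sq (w1 - w0)]
        have : (d.valMinAbs.natAbs : ℤ) ≤ ((w1 - w0).natAbs : ℤ) := by exact_mod_cast hmin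
        exact pow_le_pow_left₀ (by positivity) this 2
      exact_mod_cast h6
    have hF : g P v + g P (v + 3 * d) - g P (v + d) - g P (v + 2 * d)
        = 36 * ((w1 : ℝ) - w0) ^ 2 := by
      rw [hgG, hgG, hgG, hgG, ← hw0, ← hw1, ← hw2, ← hw3]
      have x2 : (w2 : ℝ) = 2 * w1 - w0 := by
        have : (w2 : ℤ) = 2 * w1 - w0 := by omega
        rw [this]; push_cast; ring
      have x3 : (w3 : ℝ) = 3 * w1 - 2 * w0 := by
        have : (w3 : ℤ) = 3 * w1 - 2 * w0 := by omega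
        rw [this]; push_cast; ring
      unfold KEY.G
      rw [x2, x3]
      by_cases a : Odd w0 <;> by_cases b : Odd w1
      · rw [if_pos a, if_pos b, if_pos (hpar0.mp a), if_pos (hpar1.mp b)]; ring
      · rw [if_pos a, if_neg b, if_pos (hpar0.mp a), if_neg (fun h => b (hpar1.mpr h))]; ring
      · rw [if_neg a, if_pos b, if_neg (fun h => a (hpar0.mpr h)), if_pos (hpar1.mp b)]; ring
      · rw [if_neg a, if_neg b, if_neg (fun h => a (hpar0.mpr h)),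
          if_neg (fun h => b (hpar1.mpr h))]; ring
    rw [hF]
    nlinarith [sq_nonneg (d.valMinAbs : ℝ)]
  · rw [hgG, hgG, hgG, hgG, ← hw0, ← hw1, ← hw2, ← hw3]
    have h7 : (d.valMinAbs : ℝ) ^ 2 ≤ ((P : ℝ) / 2) ^ 2 := by
      rw [← sq_abs]
      exact pow_le_pow_left₀ (abs_nonneg _) hdr 2
    nlinarith

end Vale.Agent.P057
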