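import Vale.Agent.P057.Defs

/-! P057: the averaging argument `S_PROB`. -/

set_option autoImplicit false

namespace Vale.Agent.P057

namespace PROB

open Finset

/-- pigeonhole over the windows of length `δ`. -/
lemma window {V : Type*} [DecidableEq V] (X' : Finset V) (φ : V → ℝ) (δ M : ℝ) (hδ : 0 < δ)
    (hM : 0 ≤ M) (hφ : ∀ x ∈ X', 0 ≤ φ x ∧ φ x ≤ M) :
    ∃ X : Finset V, X ⊆ X' ∧ (∀ x ∈ X, ∀ y ∈ X, φ x < φ y + δ) ∧
      (X'.card : ℝ) / (M / δ + 1) ≤ X.card := by
  classical
  set K : ℕ := ⌊M / δ⌋₊ + 1 with hK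
  have hK0 : (0 : ℝ) < K := by
    rw [hK]; positivity
  have hKle : (K : ℝ) ≤ M / δ + 1 := by
    rw [hK]; push_cast
    have := Nat.floor_le (div_nonneg hM hδ.le)
    linarith
  have hmap : ∀ x ∈ X', ⌊φ x / δ⌋₊ ∈ Finset.range K := by
    intro x hx
    rw [Finset.mem_range, hK, Nat.lt_succ_iff]
    exact Nat.floor_le_floor (div_le_div_of_nonneg_right (hφ x hx).2 hδ.le)
  have hsum : X'.card = ∑ j ∈ Finset.range K, (X'.filter (fun x => ⌊φ x / δ⌋₊ = j)).card :=
    Finset.card_eq_sum_card_fiberwise hmap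
  obtain ⟨j, hj, hcard⟩ : ∃ j ∈ Finset.range K,
      (X'.card : ℝ) / K ≤ ((X'.filter (fun x => ⌊φ x / δ⌋₊ = j)).card : ℝ) := by
    by_contra hcon
    push Not at hcon
    have hlt : ∑ j ∈ Finset.range K, ((X'.filter (fun x => ⌊φ x / δ⌋₊ = j)).card : ℝ)
        < ∑ _j ∈ Finset.range K, (X'.card : ℝ) / K :=
      Finset.sum_lt_sum_of_nonempty ⟨0, by simp [hK]⟩ hcon
    rw [Finset.sum_const, Finset.card_range, nsmul_eq_mul, mul_div_cancel₀ _ hK0.ne'] at hlt
    have : (X'.card : ℝ)
        = ∑ j ∈ Finset.range K, ((X'.filter (fun x => ⌊φ x / δ⌋₊ = j)).card : ℝ) := by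
      exact_mod_cast hsum
    linarith
  refine ⟨X'.filter (fun x => ⌊φ x / δ⌋₊ = j), Finset.filter_subset _ _, ?_, ?_⟩
  · intro x hx y hy
    rw [Finset.mem_filter] at hx hy
    have h1 : φ x / δ < j + 1 := by rw [← hx.2]; exact Nat.lt_floor_add_one _
    have h2 : (j : ℝ) ≤ φ y / δ := by
      rw [← hy.2]; exact Nat.floor_le (div_nonneg (hφ y hy.1).1 hδ.le)
    have h3 : φ x / δ < φ y / δ + 1 := by linarith
    have h4 : φ y / δ + 1 = (φ y + δ) / δ := by field_simp
    rw [h4] at h3
    exact (div_lt_div_iff_of_pos_right hδ).1 h3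
  · refine le_trans ?_ hcard
    exact div_le_div_of_nonneg_left (Nat.cast_nonneg _) hK0 hKle

variable {P D : ℕ} [Fact P.Prime]

/-- the point of the progression. -/
def pt (a : (Fin D → ZMod P) × (Fin D → ZMod P)) (n : ℕ) : Fin D → ZMod P :=
  fun i => a.1 i + (n : ZMod P) * a.2 i

lemma card_pt (X : Finset (Fin D → ZMod P)) (n : ℕ) :
    ((Finset.univ : Finset ((Fin D → ZMod P) × (Fin D → ZMod P))).filter
      (fun a => pt a n ∈ X)).card = X.card * P ^ D := by
  classical
  have hc : (P ^ D) = (Finset.univ : Finset (Fin D → ZMod P)).card := by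
    rw [Finset.card_univ, Fintype.card_fun, ZMod.card, Fintype.card_fin]
  rw [hc, ← Finset.card_product]
  apply Finset.card_bij (fun a _ => (pt a n, a.2))
  · intro a ha
    rw [Finset.mem_filter] at ha
    simp [ha.2]
  · intro a _ b _ hab
    rw [Prod.mk.injEq] at hab
    obtain ⟨h1, h2⟩ := hab
    have h3 : a.1 = b.1 := by
      funext i
      have := congrFun h1 i
      simp only [pt, h2] at this
      exact add_right_cancel this
    exact Prod.ext h3 h2
  · intro b hb
    rw [Finset.mem_product] at hb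
    refine ⟨(fun i => b.1 i - (n : ZMod P) * b.2 i, b.2), ?_, ?_⟩
    · rw [Finset.mem_filter]
      refine ⟨Finset.mem_univ _, ?_⟩
      have : pt ((fun i => b.1 i - (n : ZMod P) * b.2 i, b.2) :
          (Fin D → ZMod P) × (Fin D → ZMod P)) n = b.1 := by
        funext i; simp [pt]
      rw [this]; exact hb.1
    · apply Prod.ext
      · funext i; simp [pt]
      · rfl

lemma card_bad (X : Finset (Fin D → ZMod P)) (B : Finset (ZMod P)) (n d : ℕ)
    (hd : (d : ZMod P) ≠ 0)
    (Q : (Fin D → ZMod P) × (Fin D → ZMod P) → Prop) [DecidablePred Q]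
    (hQ : ∀ a, Q a → pt a n ∈ X ∧ ∀ i, (d : ZMod P) * a.2 i ∈ B) :
    ((Finset.univ : Finset ((Fin D → ZMod P) × (Fin D → ZMod P))).filter Q).card
      ≤ X.card * B.card ^ D := by
  classical
  have hc : (B.card ^ D) = (Fintype.piFinset (fun _ : Fin D => B)).card := by
    rw [Fintype.card_piFinset]; simp
  rw [hc, ← Finset.card_product]
  apply Finset.card_le_card_of_injOn (fun a => (pt a n, fun i => (d : ZMod P) * a.2 i))
  · intro a ha
    have ha' := (Finset.mem_filter.1 (Finset.mem_coe.1 ha)).2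
    have := hQ a ha'
    simp only [Finset.coe_product, Set.mem_prod, Finset.mem_coe, Fintype.mem_piFinset]
    exact this
  · intro a _ b _ hab
    simp only [Prod.mk.injEq] at hab
    obtain ⟨h1, h2⟩ := hab
    have h4 : a.2 = b.2 := by
      funext i
      have := congrFun h2 i
      exact mul_left_cancel₀ hd this
    have h3 : a.1 = b.1 := by
      funext i
      have := congrFun h1 i
      simp only [pt, h4] at this
      exact add_right_cancel this
    exact Prod.ext h3 h4

end PROB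

open PROB in
theorem prob : S_PROB := by
  intro P N D hP hNP hN1 S B h δ Gm hδ hh hkey hNB
  classical
  have hP0 : 0 < (P:ℝ) := by exact_mod_cast hP.out.pos
  have hN1' : (1:ℝ) ≤ N := by exact_mod_cast hN1
  have hD : D ≠ 0 := by
    rintro rfl
    rw [pow_zero, mul_one] at hNB
    linarith
  by_cases hS : S = ∅
  · subst hS
    refine ⟨∅, by simp, ?_, ?_⟩
    · intro a d hd hcon
      have := hcon 0 (by norm_num)
      simp at this
    · simp [hD]
  obtain ⟨s, hs⟩ := Finset.nonempty_iff_ne_empty.mpr hS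
  have hGm : 0 ≤ Gm := le_trans (hh s hs).1 (hh s hs).2
  -- the window
  obtain ⟨X, hXS, hXw, hXc⟩ := window (Fintype.piFinset (fun _ : Fin D => S))
    (fun x => ∑ i, h (x i)) δ (D * Gm) hδ (by positivity) (by
      intro x hx
      rw [Fintype.mem_piFinset] at hx
      refine ⟨Finset.sum_nonneg (fun i _ => (hh _ (hx i)).1), ?_⟩
      calc ∑ i, h (x i) ≤ ∑ _i : Fin D, Gm := Finset.sum_le_sum (fun i _ => (hh _ (hx i)).2)
        _ = D * Gm := by simp)
  have hcardS : ((Fintype.piFinset (fun _ : Fin D => S)).card : ℝ) = (S.card : ℝ) ^ D := by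
    rw [Fintype.card_piFinset]; simp
  rw [hcardS] at hXc
  -- the sets
  let W := (Fin D → ZMod P) × (Fin D → ZMod P)
  let A : W → Finset ℕ := fun a => (Finset.Icc 1 N).filter (fun n => pt a n ∈ X)
  let pairs : Finset (ℕ × ℕ) := (Finset.Icc 1 N) ×ˢ (Finset.Icc 1 N)
  let isbad : W → ℕ × ℕ → Prop := fun a q =>
    q.1 ∈ A a ∧ q.1 + q.2 ∈ A a ∧ q.1 + 2 * q.2 ∈ A a ∧ q.1 + 3 * q.2 ∈ A a
  let Bad : W → Finset (ℕ × ℕ) := fun a => pairs.filter (fun q => isbad a q)
  have hbad : ∀ q ∈ pairs, ∀ a, isbad a q →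
      pt a q.1 ∈ X ∧ ∀ i, ((q.2 : ℕ) : ZMod P) * a.2 i ∈ B := by
    intro q hq a hb
    obtain ⟨h0, h1, h2, h3⟩ := hb
    have h0' := (Finset.mem_filter.1 h0).2
    have h1' := (Finset.mem_filter.1 h1).2
    have h2' := (Finset.mem_filter.1 h2).2
    have h3' := (Finset.mem_filter.1 h3).2
    refine ⟨h0', ?_⟩
    have e1 : pt a (q.1 + q.2) = fun i => pt a q.1 i + ((q.2 : ℕ) : ZMod P) * a.2 i := by
      funext i; simp only [pt]; push_cast; ring
    have e2 : pt a (q.1 + 2 * q.2) = fun i => pt a q.1 i + 2 * (((q.2 : ℕ) : ZMod P) * a.2 i) := by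
      funext i; simp only [pt]; push_cast; ring
    have e3 : pt a (q.1 + 3 * q.2) = fun i => pt a q.1 i + 3 * (((q.2 : ℕ) : ZMod P) * a.2 i) := by
      funext i; simp only [pt]; push_cast; ring
    have m0 := Fintype.mem_piFinset.1 (hXS h0')
    have m1 := Fintype.mem_piFinset.1 (hXS h1')
    have m2 := Fintype.mem_piFinset.1 (hXS h2')
    have m3 := Fintype.mem_piFinset.1 (hXS h3')
    have w1 := hXw _ h0' _ h1'
    have w2 := hXw _ h3' _ h2'
    apply hkey (pt a q.1) (fun i => ((q.2 : ℕ) : ZMod P) * a.2 i)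
    · intro i
      refine ⟨m0 i, ?_, ?_, ?_⟩
      · have := m1 i; rw [e1] at this; exact this
      · have := m2 i; rw [e2] at this; exact this
      · have := m3 i; rw [e3] at this; exact this
    · rw [e1] at w1
      rw [e2, e3] at w2
      simp only [Finset.sum_sub_distrib, Finset.sum_add_distrib]
      linarith
  -- first moment
  have hA : ∑ a : W, ((A a).card : ℝ) = (N : ℝ) * (X.card * (P : ℝ) ^ D) := by
    have h1 : ∑ a : W, (A a).card = ∑ n ∈ Finset.Icc 1 N,
        ((Finset.univ : Finset W).filter (fun a => pt a n ∈ X)).card := by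
      simp only [A, Finset.card_filter]
      exact Finset.sum_comm
    have h2 : ∑ a : W, (A a).card = N * (X.card * P ^ D) := by
      rw [h1, Finset.sum_congr rfl (fun n _ => card_pt X n)]
      simp
    exact_mod_cast h2
  have hB : ∑ a : W, ((Bad a).card : ℝ) ≤ (N : ℝ) * N * (X.card * (B.card : ℝ) ^ D) := by
    have h1 : ∑ a : W, (Bad a).card = ∑ q ∈ pairs,
        ((Finset.univ : Finset W).filter (fun a => isbad a q)).card := by
      simp only [Bad, Finset.card_filter]
      exact Finset.sum_comm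
    have h2 : ∑ a : W, (Bad a).card ≤ N * N * (X.card * B.card ^ D) := by
      rw [h1]
      calc ∑ q ∈ pairs, ((Finset.univ : Finset W).filter (fun a => isbad a q)).card
          ≤ ∑ _q ∈ pairs, (X.card * B.card ^ D) := by
            apply Finset.sum_le_sum
            intro q hq
            have hq' := Finset.mem_product.1 hq
            have hq2 := Finset.mem_Icc.1 hq'.2
            apply card_bad X B q.1 q.2 ?_ _ (hbad q hq)
            intro h0
            rw [ZMod.natCast_eq_zero_iff] at h0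
            have := Nat.le_of_dvd (by omega) h0
            omega
        _ = N * N * (X.card * B.card ^ D) := by
            rw [Finset.sum_const]
            simp [pairs]
    exact_mod_cast h2
  -- choose
  have hcardW : ((Finset.univ : Finset W).card : ℝ) = (P : ℝ) ^ D * (P : ℝ) ^ D := by
    rw [Finset.card_univ, Fintype.card_prod, Fintype.card_fun, ZMod.card, Fintype.card_fin]
    push_cast; ring
  have hBP : (N : ℝ) * (B.card : ℝ) ^ D ≤ (P : ℝ) ^ D / 2 := by
    rw [div_pow, ← mul_div_assoc, div_le_iff₀ (by positivity)] at hNB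
    linarith
  have hsum : ∑ _a : W, ((N : ℝ) / 2 * X.card / (P : ℝ) ^ D)
      ≤ ∑ a : W, (((A a).card : ℝ) - ((Bad a).card : ℝ)) := by
    rw [Finset.sum_sub_distrib, hA, Finset.sum_const, nsmul_eq_mul, hcardW]
    have e : (P : ℝ) ^ D * (P : ℝ) ^ D * ((N : ℝ) / 2 * X.card / (P : ℝ) ^ D)
        = (N : ℝ) * X.card * (P : ℝ) ^ D / 2 := by
      field_simp
    rw [e]
    have h1 : (N : ℝ) * N * (X.card * (B.card : ℝ) ^ D)
        ≤ (N : ℝ) * X.card * ((P : ℝ) ^ D / 2) := by
      have : (N : ℝ) * N * (X.card * (B.card : ℝ) ^ D)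
        = (N : ℝ) * X.card * (N * (B.card : ℝ) ^ D) := by ring
      rw [this]
      exact mul_le_mul_of_nonneg_left hBP (by positivity)
    nlinarith [hB, h1]
  obtain ⟨a, _, ha⟩ := Finset.exists_le_of_sum_le (Finset.univ_nonempty) hsum
  -- deletion
  refine ⟨A a \ (Bad a).image Prod.fst, ?_, ?_, ?_⟩
  · exact (Finset.sdiff_subset).trans (Finset.filter_subset _ _)
  · intro n d hd hcon
    have c0 := hcon 0 (by norm_num)
    have c1 := hcon 1 (by norm_num)
    have c2 := hcon 2 (by norm_num)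
    have c3 := hcon 3 (by norm_num)
    simp only [zero_mul, add_zero, one_mul] at c0 c1
    rw [Finset.mem_sdiff] at c0 c1 c2 c3
    apply c0.2
    rw [Finset.mem_image]
    refine ⟨(n, d), ?_, rfl⟩
    have b0 := Finset.mem_Icc.1 (Finset.mem_filter.1 c0.1).1
    have b3 := Finset.mem_Icc.1 (Finset.mem_filter.1 c3.1).1
    refine Finset.mem_filter.2 ⟨Finset.mem_product.2 ⟨?_, ?_⟩, c0.1, c1.1, c2.1, c3.1⟩
    · exact Finset.mem_Icc.2 b0
    · exact Finset.mem_Icc.2 ⟨hd, by simp only; omega⟩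
  · have h1 : ((A a).card : ℝ) - ((Bad a).card : ℝ) ≤ ((A a \ (Bad a).image Prod.fst).card : ℝ) := by
      have h2 := Finset.le_card_sdiff ((Bad a).image Prod.fst) (A a)
      have h3 : ((Bad a).image Prod.fst).card ≤ (Bad a).card := Finset.card_image_le
      have h4 : (A a).card ≤ (A a \ (Bad a).image Prod.fst).card + (Bad a).card := by omega
      have h5 : ((A a).card : ℝ) ≤ ((A a \ (Bad a).image Prod.fst).card : ℝ) + (Bad a).card := by
        exact_mod_cast h4
      linarith
    refine le_trans ?_ (le_trans ha h1)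
    have h6 : (N : ℝ) / 2 * ((S.card : ℝ) / P) ^ D / (D * Gm / δ + 1)
        = (N : ℝ) / 2 / (P : ℝ) ^ D * ((S.card : ℝ) ^ D / (D * Gm / δ + 1)) := by
      rw [div_pow]; ring
    have h7 : (N : ℝ) / 2 * X.card / (P : ℝ) ^ D = (N : ℝ) / 2 / (P : ℝ) ^ D * X.card := by ring
    rw [h6, h7]
    exact mul_le_mul_of_nonneg_left hXc (by positivity)

end Vale.Agent.P057
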